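import Crest.Agent.N111.Stone.BRep

/-!
# Row 111: Stone's theorem.
-/

set_option autoImplicit false

namespace Crest.Agent.N111

open Filter Topology BoundedContinuousFunction MeasureTheory Set Complex
open scoped InnerProductSpace

variable {K K' : Type*} [NormedAddCommGroup K] [InnerProductSpace ℂ K] [CompleteSpace K]
  [NormedAddCommGroup K'] [InnerProductSpace ℂ K'] [CompleteSpace K']

/-- a strongly continuous one-parameter unitary group -/
structure OneParam (u : ℝ → K →L[ℂ] K) : Prop where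
  zero : u 0 = 1
  add : ∀ s t, u (s + t) = u s * u t
  norm_map : ∀ t ξ, ‖u t ξ‖ = ‖ξ‖
  cont : ∀ ξ, Continuous fun t => u t ξ

/-- the character `x ↦ exp (i t x)` -/
noncomputable def ech (t : ℝ) : ℝ →ᵇ ℂ :=
  ofNormedAddCommGroup (fun x => cexp (I * ((t * x : ℝ) : ℂ))) (by fun_prop) 1
    fun x => by rw [mul_comm, norm_exp_ofReal_mul_I]

lemma ech_apply (t x : ℝ) : ech t x = cexp (I * ((t * x : ℝ) : ℂ)) := rfl

lemma norm_ech (t x : ℝ) : ‖ech t x‖ = 1 := by rw [ech_apply, mul_comm, norm_exp_ofReal_mul_I]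

lemma ech_add (s t : ℝ) : ech (s + t) = ech s * ech t := by
  ext x
  simp only [ech_apply, BoundedContinuousFunction.coe_mul, Pi.mul_apply, ← Complex.exp_add]
  congr 1; push_cast; ring

@[simp] lemma ech_zero : ech 0 = 1 := by ext x; simp [ech_apply]

lemma star_ech (t : ℝ) : star (ech t) = ech (-t) := by
  ext x
  simp [ech_apply, ← Complex.exp_conj]

lemma one_sub_I_mul_ne (x : ℝ) : (1 - I * x : ℂ) ≠ 0 := fun h => by
  simpa using congrArg Complex.re h

lemma normSq_one_sub_I_mul (x : ℝ) : ‖(1 - I * x : ℂ)‖ ^ 2 = 1 + x ^ 2 := by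
  rw [Complex.sq_norm, Complex.normSq_apply]; simp; ring

/-- the resolvent function `x ↦ (1 - i x)⁻¹` -/
noncomputable def rsv : ℝ →ᵇ ℂ :=
  ofNormedAddCommGroup (fun x => (1 - I * x : ℂ)⁻¹)
    (Continuous.inv₀ (by fun_prop) one_sub_I_mul_ne) 1 fun x => by
      rw [norm_inv]
      refine inv_le_one_of_one_le₀ (le_of_sq_le_sq ?_ (norm_nonneg _))
      rw [normSq_one_sub_I_mul]; nlinarith [sq_nonneg x]

lemma rsv_apply (x : ℝ) : rsv x = (1 - I * x : ℂ)⁻¹ := rfl

lemma rsv_ne (x : ℝ) : rsv x ≠ 0 := inv_ne_zero (one_sub_I_mul_ne x)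

lemma norm_rsv_sq (x : ℝ) : ‖rsv x‖ ^ 2 = (1 + x ^ 2)⁻¹ := by
  rw [rsv_apply, norm_inv, inv_pow, normSq_one_sub_I_mul]

lemma tendsto_rsv : Tendsto rsv (cocompact ℝ) (𝓝 0) := by
  have h1 : Tendsto (fun x : ℝ => (1 + x ^ 2)⁻¹) (cocompact ℝ) (𝓝 0) := by
    refine tendsto_inv_atTop_zero.comp (tendsto_atTop_add_const_left _ _ ?_)
    simpa [Function.comp_def] using (tendsto_pow_atTop two_ne_zero).comp (tendsto_norm_cocompact_atTop (E := ℝ))
  rw [tendsto_zero_iff_norm_tendsto_zero]
  simpa [← norm_rsv_sq] using h1.sqrt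

lemma norm_exp_I_sub_le (y : ℝ) : ‖cexp (I * y) - 1 - I * y‖ ≤ 3 * y ^ 2 := by
  rcases le_total |y| 1 with h | h
  · refine (Complex.norm_exp_sub_one_sub_id_le (by simpa using h)).trans ?_
    simp only [norm_mul, norm_I, one_mul, norm_real, Real.norm_eq_abs, sq_abs]
    nlinarith [sq_nonneg y]
  · refine (norm_sub_le _ _).trans ((add_le_add (norm_sub_le _ _) le_rfl).trans ?_)
    rw [mul_comm, norm_exp_ofReal_mul_I]
    simp only [norm_mul, norm_I, mul_one, norm_real, Real.norm_eq_abs, norm_one]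
    rw [← sq_abs]; nlinarith

lemma hasDerivAt_ech (t : ℝ) :
    HasDerivAt (fun s => ech s * (star rsv * star rsv)) (ech t * (star rsv * (1 - star rsv))) t := by
  rw [hasDerivAt_iff_isLittleO_nhds_zero]
  refine Asymptotics.IsBigO.trans_isLittleO (g := fun h : ℝ => h ^ 2)
    (Asymptotics.IsBigO.of_bound 3 (Eventually.of_forall fun h => ?_))
    (Asymptotics.isLittleO_pow_id one_lt_two)
  refine (BoundedContinuousFunction.norm_le (by positivity)).2 fun x => ?_
  have e : (ech (t + h) * (star rsv * star rsv) - ech t * (star rsv * star rsv)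
      - h • (ech t * (star rsv * (1 - star rsv)))) x
      = ech t x * (cexp (I * (h * x : ℝ)) - 1 - I * (h * x : ℝ)) * star (rsv x * rsv x) := by
    have h1 : star (rsv x) * (1 + I * x) = 1 := by
      have := congrArg star (inv_mul_cancel₀ (one_sub_I_mul_ne x))
      simpa [rsv_apply] using this
    rw [ech_add]
    simp only [BoundedContinuousFunction.coe_sub, BoundedContinuousFunction.coe_mul,
      BoundedContinuousFunction.coe_smul, Pi.sub_apply, Pi.mul_apply,
      BoundedContinuousFunction.star_apply, BoundedContinuousFunction.coe_one, Pi.one_apply,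
      real_smul, ech_apply h, star_mul']
    push_cast
    linear_combination (h * ech t x * star (rsv x)) * h1
  rw [e, norm_mul, norm_mul, norm_ech, one_mul, norm_star, norm_mul, ← sq, norm_rsv_sq,
    Real.norm_of_nonneg (sq_nonneg h), ← div_eq_mul_inv, div_le_iff₀ (by positivity)]
  refine (norm_exp_I_sub_le _).trans ?_
  nlinarith [sq_nonneg h, sq_nonneg x]

namespace OneParam

variable {u : ℝ → K →L[ℂ] K} (hu : OneParam u)
include hu

omit [CompleteSpace K] in
lemma comm (s t : ℝ) : u s * u t = u t * u s := by rw [← hu.add, add_comm, hu.add]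

omit [CompleteSpace K] in
lemma mul_neg (t : ℝ) : u t * u (-t) = 1 := by rw [← hu.add, add_neg_cancel, hu.zero]

omit [CompleteSpace K] in
lemma inner_map_map (t : ℝ) (ξ η : K) : ⟪u t ξ, u t η⟫_ℂ = ⟪ξ, η⟫_ℂ :=
  LinearIsometry.inner_map_map (⟨(u t : K →ₗ[ℂ] K), hu.norm_map t⟩ : K →ₗᵢ[ℂ] K) ξ η

lemma star_eq (t : ℝ) : star (u t) = u (-t) :=
  ((ContinuousLinearMap.eq_adjoint_iff _ _).2 fun v w => by
    rw [← hu.inner_map_map t, ← mul_apply_eq_comp, hu.mul_neg, one_apply_eq_self]).symm

omit [CompleteSpace K] in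
lemma integrableOn (ξ : K) (c : ℝ) : IntegrableOn (fun s => Real.exp (-s) • u s ξ) (Ioi c) := by
  refine Integrable.mono' ((integrableOn_exp_neg_Ioi c).mul_const ‖ξ‖)
    (Continuous.aestronglyMeasurable (by have := hu.cont ξ; fun_prop))
    (Eventually.of_forall fun s => ?_)
  rw [norm_smul, hu.norm_map, Real.norm_of_nonneg (Real.exp_pos _).le]

/-- the resolvent `∫₀^∞ e^{-s} u_s ds` -/
noncomputable def res : K →L[ℂ] K :=
  LinearMap.mkContinuous
    { toFun := fun ξ => ∫ s in Ioi (0 : ℝ), Real.exp (-s) • u s ξ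
      map_add' := fun ξ η => by
        simp only [map_add, smul_add]
        exact integral_add (hu.integrableOn ξ 0) (hu.integrableOn η 0)
      map_smul' := fun c ξ => by
        simp only [map_smul, RingHom.id_apply, ← integral_smul, smul_comm c] } 1
    fun ξ => by
      refine (norm_integral_le_of_norm_le ((integrableOn_exp_neg_Ioi 0).mul_const ‖ξ‖)
        (Eventually.of_forall fun s => ?_)).trans ?_
      · rw [norm_smul, hu.norm_map, Real.norm_of_nonneg (Real.exp_pos _).le]
      · rw [integral_mul_const, integral_exp_neg_Ioi_zero]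

omit [CompleteSpace K] in
lemma res_apply (ξ : K) : hu.res ξ = ∫ s in Ioi (0 : ℝ), Real.exp (-s) • u s ξ := rfl

lemma intertwine_res {u' : ℝ → K' →L[ℂ] K'} (hu' : OneParam u') {T : K →L[ℂ] K'}
    (h : ∀ t, T ∘L u t = u' t ∘L T) : T ∘L hu.res = hu'.res ∘L T := by
  ext1 ξ
  simp only [ContinuousLinearMap.comp_apply, res_apply]
  rw [← T.integral_comp_comm (hu.integrableOn ξ 0)]
  refine integral_congr_ae (Eventually.of_forall fun s => ?_)
  simp only [T.map_smul_of_tower]
  exact congrArg (fun A : K →L[ℂ] K' => Real.exp (-s) • A ξ) (h s)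

lemma comm_res {T : K →L[ℂ] K} (h : ∀ t, T * u t = u t * T) : T * hu.res = hu.res * T :=
  hu.intertwine_res hu h

lemma u_res (t : ℝ) : u t * hu.res = hu.res * u t := hu.comm_res (hu.comm t)

lemma star_res_comm {T : K →L[ℂ] K} (h : ∀ t, T * u t = u t * T) :
    T * star hu.res = star hu.res * T := by
  have := hu.comm_res (T := star T) fun t => by
    have := congrArg star (h (-t))
    rwa [star_mul, star_mul, hu.star_eq, neg_neg, eq_comm] at this
  have := congrArg star this
  rwa [star_mul, star_mul, star_star, eq_comm] at this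

lemma res_normal : star hu.res * hu.res = hu.res * star hu.res :=
  hu.comm_res fun t => (hu.star_res_comm (hu.comm t)).symm

lemma hasDerivAt (ξ : K) (t : ℝ) :
    HasDerivAt (fun s => u s (hu.res ξ)) (u t (hu.res ξ) - u t ξ) t := by
  have hc : Continuous fun s => Real.exp (-s) • u s ξ := by have := hu.cont ξ; fun_prop
  have e : ∀ t, u t (hu.res ξ)
      = Real.exp t • (hu.res ξ - ∫ s in (0 : ℝ)..t, Real.exp (-s) • u s ξ) := fun t => by
    have h1 := intervalIntegral.integral_interval_add_Ioi' (hc.intervalIntegrable 0 t)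
      (hu.integrableOn ξ t)
    have h2 := (measurePreserving_add_right volume t).setIntegral_preimage_emb
      (measurableEmbedding_addRight t) (fun s => Real.exp (-s) • u s ξ) (Ioi t)
    rw [preimage_add_const_Ioi, sub_self] at h2
    rw [res_apply, ← (u t).integral_comp_comm (hu.integrableOn ξ 0), ← h1, add_sub_cancel_left,
      ← h2, ← integral_smul]
    refine integral_congr_ae (Eventually.of_forall fun s => ?_)
    simp only [(u t).map_smul_of_tower, smul_smul, ← Real.exp_add]
    rw [add_comm s t, hu.add, mul_apply_eq_comp]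
    congr 2; ring
  have h := (Real.hasDerivAt_exp t).smul
    ((hc.integral_hasStrictDerivAt 0 t).hasDerivAt.const_sub (hu.res ξ))
  convert h using 1
  · ext1 s; exact e s
  · rw [← e, smul_neg, smul_smul, ← Real.exp_add]; simp [sub_eq_neg_add]

lemma res_inj {ξ : K} (h : hu.res ξ = 0) : ξ = 0 := by
  have h1 := hu.hasDerivAt ξ 0
  simp only [h, map_zero, hu.zero, one_apply_eq_self, zero_sub] at h1
  exact neg_eq_zero.1 (h1.unique (hasDerivAt_const _ _))

lemma denseRange_res : DenseRange hu.res :=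
  denseRange_of_adjoint_inj fun ξ hξ => hu.res_inj (by
    rw [← norm_eq_zero, ← norm_star_apply_of_normal hu.res_normal, hξ, norm_zero])

lemma res_quad : star hu.res * hu.res + star hu.res * hu.res = star hu.res + hu.res := by
  ext1 ξ
  refine ext_inner_left ℂ fun η => ?_
  have h := (hu.hasDerivAt η 0).inner ℂ (hu.hasDerivAt ξ 0)
  simp only [hu.inner_map_map, hu.zero, one_apply_eq_self] at h
  have h1 := h.unique (hasDerivAt_const _ _)
  simp only [_root_.add_apply, mul_apply_eq_comp, inner_add_right,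
    ContinuousLinearMap.star_eq_adjoint, ContinuousLinearMap.adjoint_inner_right]
  rw [inner_sub_left, inner_sub_right] at h1
  linear_combination h1

end OneParam

/-- the inverse of `rsv` -/
noncomputable def rinv (z : ℂ) : ℝ := z.im / normSq z

lemma continuousOn_rinv : ContinuousOn rinv {z | z ≠ 0} :=
  continuous_im.continuousOn.div continuous_normSq.continuousOn fun _ hz => mt normSq_eq_zero.1 hz

lemma rsv_rinv {z : ℂ} (hz : z ≠ 0) (h : star z * z + star z * z = star z + z) :
    rsv (rinv z) = z := by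
  have h1 : normSq z = z.re := by
    have := congrArg Complex.re h
    simp only [add_re, mul_re, star_def, conj_re, conj_im] at this
    rw [normSq_apply]; linarith
  have h2 : normSq z ≠ 0 := mt normSq_eq_zero.1 hz
  rw [rsv_apply]
  refine inv_eq_of_mul_eq_one_left (Complex.ext ?_ ?_)
  · simp [rinv]; field_simp; rw [normSq_apply] at h1 ⊢; nlinarith
  · simp [rinv]; rw [← h1]; field_simp; ring

lemma rinv_rsv (x : ℝ) : rinv (rsv x) = x := by
  have h : normSq (1 - I * x) ≠ 0 := mt normSq_eq_zero.1 (one_sub_I_mul_ne x)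
  simp [rinv, rsv_apply]; field_simp

lemma ech_sep (x y : ℝ) (h : x ≠ y) : ∃ f ∈ Set.range ech, f x ≠ f y := by
  refine ⟨_, ⟨Real.pi / (x - y), rfl⟩, fun e => ?_⟩
  have h1 : x - y ≠ 0 := sub_ne_zero.2 h
  rw [ech_apply, ech_apply, ← div_eq_one_iff_eq (Complex.exp_ne_zero _), ← Complex.exp_sub,
    ← mul_sub, ← ofReal_sub, ← mul_sub, div_mul_cancel₀ _ h1, mul_comm, exp_pi_mul_I] at e
  norm_num at e

/-- **Stone's theorem.** -/
theorem OneParam.exists_brep {u : ℝ → K →L[ℂ] K} (hu : OneParam u) :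
    ∃ θ : BRep ℝ K, θ.Nondeg ∧ ∀ t, θ (ech t) = u t := by
  have hn : IsStarNormal hu.res := ⟨hu.res_normal⟩
  let Θ : MOI.Rep (spectrum ℂ hu.res) (K →L[ℂ] K) := cfcHom hn
  let w : C(spectrum ℂ hu.res, ℂ) := (ContinuousMap.id ℂ).restrict _
  have hw0 : Θ w = hu.res := cfcHom_id hn
  have hw : DenseRange (Θ w) := by rw [hw0]; exact hu.denseRange_res
  have hp : ContinuousOn (fun z : spectrum ℂ hu.res => rinv z) {y | w y ≠ 0} :=
    continuousOn_rinv.comp continuous_subtype_val.continuousOn fun _ h => h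
  have hq : star w * w + star w * w = star w + w :=
    cfcHom_injective hn (by
      change Θ _ = Θ _
      simp only [map_add, map_mul, map_star, hw0, hu.res_quad])
  let θ := BRep.ext Θ w hp hw
  have hr : θ rsv = hu.res := BRep.ext_eq Θ w hp hw (by
    refine (congrArg (· * Θ w) hw0.symm).trans ((map_mul Θ w w).symm.trans ?_)
    congr 1
    ext y
    by_cases hy : w y = 0
    · simp [hy]
    · exact congrArg (· * w y) (rsv_rinv hy (DFunLike.congr_fun hq y)).symm)
  refine ⟨θ, ⟨rsv, tendsto_rsv, hr ▸ hu.denseRange_res⟩, fun t => ?_⟩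
  set R := hu.res with hR
  have hadj : ∀ (F : ℝ →ᵇ ℂ) (η ζ : K), ⟪θ (star F) η, ζ⟫_ℂ = ⟪η, θ F ζ⟫_ℂ := fun F η ζ => by
    rw [map_star, ContinuousLinearMap.star_eq_adjoint, ContinuousLinearMap.adjoint_inner_left]
  have key : θ (ech (-t)) * R * R * u t * R = R * R * R := by
    ext1 ξ
    refine ext_inner_left ℂ fun η => ?_
    let L : (ℝ →ᵇ ℂ) →L[ℝ] K := ((ContinuousLinearMap.apply ℂ K η) ∘L θ.clm).restrictScalars ℝ
    have hd : ∀ s, HasDerivAt (fun s => ⟪θ (ech s * (star rsv * star rsv)) η, u s (R ξ)⟫_ℂ) 0 s := by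
      intro s
      have h := (L.hasFDerivAt.comp_hasDerivAt s (hasDerivAt_ech s)).inner ℂ (hu.hasDerivAt ξ s)
      refine h.congr_deriv (Eq.symm ?_)
      have e1 : ech s * (star rsv * star rsv) = star (ech (-s) * rsv * rsv) := by
        simp only [star_mul', star_ech, neg_neg, mul_assoc]
      have e2 : ech s * (star rsv * (1 - star rsv)) = star (ech (-s) * rsv * (1 - rsv)) := by
        simp only [star_mul', star_ech, neg_neg, mul_assoc, star_sub, star_one]
      change 0 = ⟪θ (ech s * (star rsv * star rsv)) η, _⟫_ℂ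
        + ⟪θ (ech s * (star rsv * (1 - star rsv))) η, _⟫_ℂ
      have e3 : u s (R ξ) = R (u s ξ) := congrArg (fun A : K →L[ℂ] K => A ξ) (hu.u_res s)
      rw [e1, e2, hadj, hadj, ← inner_add_right, e3]
      simp only [map_mul, map_sub, map_one, hr, mul_apply_eq_comp, _root_.sub_apply,
        one_apply_eq_self, sub_add_sub_cancel, sub_self, inner_zero_right]
    have h := is_const_of_deriv_eq_zero (fun s => (hd s).differentiableAt)
      (fun s => (hd s).deriv) t 0
    have e1 : ∀ s, ech s * (star rsv * star rsv) = star (ech (-s) * rsv * rsv) := fun s => by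
      simp only [star_mul', star_ech, neg_neg, mul_assoc]
    simp only [e1, hadj] at h
    simp only [map_mul, hr, neg_zero, ech_zero, hu.zero, one_mul] at h
    exact h
  have hd := hu.denseRange_res
  refine mul_cancel_denseRange hd (mul_cancel_denseRange hd (mul_cancel_denseRange hd ?_))
  rw [← hR, mul_assoc, mul_assoc, ← mul_assoc R, ← key]
  simp only [← mul_assoc]
  rw [← map_mul, ← ech_add, add_neg_cancel, ech_zero, map_one, one_mul, hu.u_res t,
    mul_assoc R (u t), hu.u_res t, ← mul_assoc]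

/-- the spectral resolution of a one-parameter group -/
noncomputable def OneParam.θ {u : ℝ → K →L[ℂ] K} (hu : OneParam u) : BRep ℝ K :=
  hu.exists_brep.choose

theorem OneParam.nondeg {u : ℝ → K →L[ℂ] K} (hu : OneParam u) : hu.θ.Nondeg :=
  hu.exists_brep.choose_spec.1

theorem OneParam.θ_ech {u : ℝ → K →L[ℂ] K} (hu : OneParam u) (t : ℝ) : hu.θ (ech t) = u t :=
  hu.exists_brep.choose_spec.2 t

theorem BRep.intertwine_of_ech {θ : BRep ℝ K} {θ' : BRep ℝ K'} (h : θ.Nondeg) (h' : θ'.Nondeg)
    {T : K →L[ℂ] K'} (hT : ∀ t, T ∘L θ (ech t) = θ' (ech t) ∘L T) (F : ℝ →ᵇ ℂ) :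
    T ∘L θ F = θ' F ∘L T :=
  BRep.intertwine_of_sep h h' T _ ech_sep (by rintro _ ⟨t, rfl⟩; exact hT t)
    (by rintro _ ⟨t, rfl⟩; rw [star_ech]; exact hT _) F

theorem OneParam.comm_θ {u : ℝ → K →L[ℂ] K} (hu : OneParam u) {T : K →L[ℂ] K}
    (hT : ∀ t, T * u t = u t * T) (F : ℝ →ᵇ ℂ) : T * hu.θ F = hu.θ F * T :=
  BRep.intertwine_of_ech hu.nondeg hu.nondeg (fun t => by rw [hu.θ_ech]; exact hT t) F

/-- the one-parameter group of a non-degenerate representation -/
theorem BRep.Nondeg.oneParam {θ : BRep ℝ K} (h : θ.Nondeg) : OneParam fun t => θ (ech t) where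
  zero := by simp
  add s t := by rw [ech_add, map_mul]
  norm_map t ξ := le_antisymm
    (by simpa using θ.norm_apply_mono (F := ech t) (G := 1) (fun x => by simp [norm_ech]) ξ)
    (by simpa using θ.norm_apply_mono (F := 1) (G := ech t) (fun x => by simp [norm_ech]) ξ)
  cont ξ := by
    refine continuous_iff_continuousAt.2 fun t => h.tendsto (C := 1)
      (Eventually.of_forall fun s => (BoundedContinuousFunction.norm_le zero_le_one).2
        fun x => (norm_ech s x).le) (fun S hS ε hε => ?_) ξ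
    refine hS.eventually_forall_of_forall_eventually (P := fun s z => ‖ech s z - ech t z‖ ≤ ε)
      fun z _ => ?_
    have hc : Continuous fun p : ℝ × ℝ => ‖ech p.1 p.2 - ech t p.2‖ := by
      simp only [ech_apply]; fun_prop
    exact (hc.tendsto (t, z)).eventually (Iic_mem_nhds (by simpa using hε))

section joint

variable {Y : Type} [TopologicalSpace Y] [CompactSpace Y] [T2Space Y]

/-- **Joint spectral resolution** of a representation of `C(Y)` and a commuting one-parameter
group. -/
theorem BRep.exists_joint (Φ : MOI.Rep Y (K →L[ℂ] K)) {θ : BRep ℝ K} (h : θ.Nondeg)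
    (hc : ∀ f F, Commute (Φ f) (θ F)) :
    ∃ J : BRep (Y × ℝ) K, J.Nondeg ∧ J.toRep .fst = Φ ∧ J.map .snd = θ := by
  let r : C(ℝ, Metric.closedBall (0 : ℂ) ‖rsv‖) :=
    ⟨fun x => ⟨rsv x, mem_closedBall_zero_iff.2 (rsv.norm_coe_le_norm x)⟩, by fun_prop⟩
  let Θ := Φ.joint (θ.toRep r) fun f g => hc f _
  let i : C(Metric.closedBall (0 : ℂ) ‖rsv‖, ℂ) := (ContinuousMap.id ℂ).restrict _
  let w : C(Y × Metric.closedBall (0 : ℂ) ‖rsv‖, ℂ) := i.comp .snd
  have hw0 : Θ w = θ rsv := MOI.Rep.joint_snd _ _ _ i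
  have hw : DenseRange (Θ w) := hw0 ▸ h.denseRange rsv_ne
  have hp0 : ContinuousOn (fun z : Metric.closedBall (0 : ℂ) ‖rsv‖ => rinv z) {y | i y ≠ 0} :=
    continuousOn_rinv.comp continuous_subtype_val.continuousOn fun _ h => h
  have hp : ContinuousOn (fun y : Y × Metric.closedBall (0 : ℂ) ‖rsv‖ => (y.1, rinv y.2))
      {y | w y ≠ 0} :=
    continuousOn_fst.prodMk (hp0.comp continuousOn_snd fun _ h => h)
  have h2 : (BRep.ext Θ w hp hw).map .snd = θ := by
    ext1 F
    refine BRep.ext_eq Θ w hp hw ?_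
    have e : BRep.hat w hp (F.compContinuous .snd) = (BRep.hat i hp0 F).comp .snd := rfl
    change _ = Θ (BRep.hat w hp (F.compContinuous .snd))
    rw [hw0, e, ← map_mul]
    refine Eq.trans ?_ (MOI.Rep.joint_snd _ _ _ _).symm
    rw [BRep.toRep_apply]
    congr 1
    ext x
    change F x * rsv x = F (rinv (rsv x)) * rsv x
    rw [rinv_rsv]
  refine ⟨BRep.ext Θ w hp hw, ⟨rsv.compContinuous .snd, ?_, ?_⟩, ?_, h2⟩
  · refine tendsto_rsv.comp ?_
    exact (isProperMap_iff_tendsto_cocompact.1 isProperMap_snd_of_compactSpace).2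
  · rw [← BRep.map_apply, h2]; exact h.denseRange rsv_ne
  · ext1 f
    refine BRep.ext_eq Θ w hp hw ?_
    rw [← MOI.Rep.joint_fst Φ (θ.toRep r) (fun f g => hc f _) f, ← map_mul]
    rfl

end joint

end Crest.Agent.N111
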