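import Crest.Agent.N111.MOI.Rep

/-!
# Row 111: representations of `C_b(Z)` (spectral measures on non-compact spaces).
-/

set_option autoImplicit false

namespace Crest.Agent.N111

open Filter Topology BoundedContinuousFunction
open scoped InnerProductSpace

variable {K K' : Type*} [NormedAddCommGroup K] [InnerProductSpace ℂ K] [CompleteSpace K]
  [NormedAddCommGroup K'] [InnerProductSpace ℂ K'] [CompleteSpace K']

/-- unital `*`-representations of the bounded continuous functions on `Z` -/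
abbrev BRep (Z : Type) [TopologicalSpace Z] (K : Type*) [NormedAddCommGroup K]
    [InnerProductSpace ℂ K] [CompleteSpace K] : Type _ := (Z →ᵇ ℂ) →⋆ₐ[ℂ] (K →L[ℂ] K)

lemma norm_sq_eq_re_inner (a : K →L[ℂ] K) (ξ : K) :
    ‖a ξ‖ ^ 2 = (⟪ξ, (star a * a) ξ⟫_ℂ).re := by
  rw [mul_apply_eq_comp, ContinuousLinearMap.star_eq_adjoint,
    ContinuousLinearMap.adjoint_inner_right, inner_self_eq_norm_sq_to_K]
  norm_cast

lemma norm_le_of_star_mul {a b c : K →L[ℂ] K} (h : star b * b = star a * a + star c * c) (ξ : K) :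
    ‖a ξ‖ ≤ ‖b ξ‖ := by
  refine le_of_sq_le_sq ?_ (norm_nonneg _)
  have := norm_sq_eq_re_inner b ξ
  rw [h, _root_.add_apply, inner_add_right, Complex.add_re, ← norm_sq_eq_re_inner,
    ← norm_sq_eq_re_inner] at this
  nlinarith [sq_nonneg ‖c ξ‖]

lemma sqrt_aux {a b : ℂ} (h : ‖a‖ ≤ ‖b‖) :
    star b * b = star a * a + star ((√(‖b‖ ^ 2 - ‖a‖ ^ 2) : ℝ) : ℂ) * (√(‖b‖ ^ 2 - ‖a‖ ^ 2) : ℝ) := by
  have h1 : 0 ≤ ‖b‖ ^ 2 - ‖a‖ ^ 2 := by nlinarith [norm_nonneg a]
  simp only [Complex.star_def, Complex.conj_mul', Complex.conj_ofReal]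
  rw [← Complex.ofReal_mul, Real.mul_self_sqrt h1]
  push_cast; ring

theorem MOI.Rep.norm_apply_mono {Y : Type} [TopologicalSpace Y] (Θ : MOI.Rep Y (K →L[ℂ] K))
    {f g : C(Y, ℂ)} (h : ∀ y, ‖f y‖ ≤ ‖g y‖) (ξ : K) : ‖Θ f ξ‖ ≤ ‖Θ g ξ‖ := by
  let c : C(Y, ℂ) := ⟨fun y => ((√(‖g y‖ ^ 2 - ‖f y‖ ^ 2) : ℝ) : ℂ), by fun_prop⟩
  refine norm_le_of_star_mul (c := Θ c) ?_ ξ
  simp only [← map_star, ← map_mul, ← map_add]
  congr 1
  ext y
  exact sqrt_aux (h y)

omit [CompleteSpace K] [CompleteSpace K'] in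
lemma eq_of_mul_denseRange {a : K →L[ℂ] K} (ha : DenseRange a) {S T : K →L[ℂ] K'}
    (h : S ∘L a = T ∘L a) : S = T := by
  ext1 ξ
  exact ha.induction_on ξ (isClosed_eq S.continuous T.continuous)
    fun η => congrArg (fun A : K →L[ℂ] K' => A η) h

omit [CompleteSpace K] in
lemma mul_cancel_denseRange {a : K →L[ℂ] K} (ha : DenseRange a) {S T : K →L[ℂ] K}
    (h : S * a = T * a) : S = T := eq_of_mul_denseRange ha h

lemma denseRange_of_adjoint_inj {a : K →L[ℂ] K} (h : ∀ ξ, star a ξ = 0 → ξ = 0) :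
    DenseRange a := by
  have : (a.range).topologicalClosure = ⊤ := by
    rw [Submodule.topologicalClosure_eq_top_iff, eq_bot_iff]
    intro ξ hξ
    refine h ξ (ext_inner_left ℂ fun η => ?_)
    rw [ContinuousLinearMap.star_eq_adjoint, ContinuousLinearMap.adjoint_inner_right,
      inner_zero_right]
    exact hξ _ ⟨η, rfl⟩
  exact (Submodule.dense_iff_topologicalClosure_eq_top.2 this : _)

lemma adjoint_inj_of_denseRange {a : K →L[ℂ] K} (h : DenseRange a) {ξ : K} (hξ : star a ξ = 0) :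
    ξ = 0 := by
  refine ext_inner_left ℂ fun η => h.induction_on η (isClosed_eq (by fun_prop) (by fun_prop))
    fun ζ => ?_
  rw [← ContinuousLinearMap.adjoint_inner_right, ← ContinuousLinearMap.star_eq_adjoint, hξ,
    inner_zero_right, inner_zero_right]

lemma norm_star_apply_of_normal {a : K →L[ℂ] K} (h : star a * a = a * star a) (ξ : K) :
    ‖star a ξ‖ = ‖a ξ‖ := by
  refine (pow_left_inj₀ (norm_nonneg _) (norm_nonneg _) two_ne_zero).1 ?_
  rw [norm_sq_eq_re_inner, norm_sq_eq_re_inner, star_star, h]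

namespace BRep

variable {Z : Type} [TopologicalSpace Z] (θ : BRep Z K)

theorem comm (F G : Z →ᵇ ℂ) : Commute (θ F) (θ G) := (Commute.all F G).map θ

theorem norm_le (F : Z →ᵇ ℂ) : ‖θ F‖ ≤ ‖F‖ := NonUnitalStarAlgHom.norm_apply_le θ F

theorem norm_apply_le (F : Z →ᵇ ℂ) (ξ : K) : ‖θ F ξ‖ ≤ ‖F‖ * ‖ξ‖ :=
  (θ F).le_of_opNorm_le (θ.norm_le F) ξ

/-- a representation as a continuous linear map -/
noncomputable def clm : (Z →ᵇ ℂ) →L[ℂ] (K →L[ℂ] K) :=
  (θ.toAlgHom.toLinearMap).mkContinuous 1 fun f => by simpa using θ.norm_le f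

@[simp] theorem clm_apply (F : Z →ᵇ ℂ) : θ.clm F = θ F := rfl

theorem continuous : Continuous θ := θ.clm.continuous

theorem norm_apply_mono {F G : Z →ᵇ ℂ} (h : ∀ y, ‖F y‖ ≤ ‖G y‖) (ξ : K) : ‖θ F ξ‖ ≤ ‖θ G ξ‖ := by
  let c : Z →ᵇ ℂ := ofNormedAddCommGroup (fun y => ((√(‖G y‖ ^ 2 - ‖F y‖ ^ 2) : ℝ) : ℂ))
    (by fun_prop) ‖G‖ fun y => by
      rw [Complex.norm_real, Real.norm_of_nonneg (Real.sqrt_nonneg _)]
      refine Real.sqrt_le_iff.2 ⟨norm_nonneg _, ?_⟩
      nlinarith [sq_nonneg ‖F y‖, G.norm_coe_le_norm y, norm_nonneg (G y)]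
  refine norm_le_of_star_mul (c := θ c) ?_ ξ
  simp only [← map_star, ← map_mul, ← map_add]
  congr 1
  ext y
  exact sqrt_aux (h y)

/-- non-degeneracy: no spectral mass at infinity -/
def Nondeg : Prop := ∃ w : Z →ᵇ ℂ, Tendsto w (cocompact Z) (𝓝 0) ∧ DenseRange (θ w)

variable {θ}

/-- bounded, locally uniformly convergent families converge strongly -/
theorem Nondeg.tendsto_zero (h : θ.Nondeg) {α : Type*} {l : Filter α} {F : α → Z →ᵇ ℂ} {C : ℝ}
    (hC : ∀ᶠ a in l, ‖F a‖ ≤ C)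
    (hF : ∀ S, IsCompact S → ∀ ε > 0, ∀ᶠ a in l, ∀ z ∈ S, ‖F a z‖ ≤ ε) (ξ : K) :
    Tendsto (fun a => θ (F a) ξ) l (𝓝 0) := by
  obtain ⟨w, hw, hd⟩ := h
  rw [Metric.tendsto_nhds]
  intro ε hε
  set D := |C| + 1 with hD
  have hD0 : 0 < D := by positivity
  obtain ⟨η, hη⟩ := hd.exists_dist_lt ξ (by positivity : 0 < ε / (2 * D))
  set δ := ε / (2 * (‖η‖ + 1)) with hδ
  have hδ0 : 0 < δ := by positivity
  obtain ⟨S, hS, hS'⟩ := mem_cocompact.1
    (Metric.tendsto_nhds.1 hw _ (by positivity : 0 < δ / D))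
  filter_upwards [hC, hF S hS _ (by positivity : 0 < δ / (‖w‖ + 1))] with a h1 h2
  have h1' : ‖F a‖ ≤ D := h1.trans (by linarith [le_abs_self C])
  have h3 : ‖F a * w‖ ≤ δ := (BoundedContinuousFunction.norm_le hδ0.le).2 fun z => by
    rw [BoundedContinuousFunction.coe_mul, Pi.mul_apply, norm_mul]
    by_cases hz : z ∈ S
    · calc _ ≤ δ / (‖w‖ + 1) * (‖w‖ + 1) := by
            gcongr
            · exact h2 z hz
            · linarith [w.norm_coe_le_norm z]
        _ = δ := by field_simp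
    · have h4 : dist (w z) 0 < δ / D := hS' hz
      rw [dist_zero_right] at h4
      calc _ ≤ D * (δ / D) := by
            gcongr
            exact ((F a).norm_coe_le_norm z).trans h1'
        _ = δ := by field_simp
  have e : θ (F a) ξ = θ (F a) (ξ - θ w η) + θ (F a * w) η := by
    rw [map_mul, mul_apply_eq_comp, map_sub, sub_add_cancel]
  rw [dist_zero_right, e]
  rw [dist_eq_norm] at hη
  calc _ ≤ ‖F a‖ * ‖ξ - θ w η‖ + ‖F a * w‖ * ‖η‖ :=
        (norm_add_le _ _).trans (add_le_add (θ.norm_apply_le _ _) (θ.norm_apply_le _ _))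
    _ ≤ D * ‖ξ - θ w η‖ + δ * (‖η‖ + 1) := by gcongr; linarith
    _ < D * (ε / (2 * D)) + δ * (‖η‖ + 1) := by gcongr
    _ = ε := by rw [hδ]; field_simp; ring

theorem Nondeg.tendsto (h : θ.Nondeg) {α : Type*} {l : Filter α} {F : α → Z →ᵇ ℂ} {F₀ : Z →ᵇ ℂ}
    {C : ℝ} (hC : ∀ᶠ a in l, ‖F a‖ ≤ C)
    (hF : ∀ S, IsCompact S → ∀ ε > 0, ∀ᶠ a in l, ∀ z ∈ S, ‖F a z - F₀ z‖ ≤ ε) (ξ : K) :
    Tendsto (fun a => θ (F a) ξ) l (𝓝 (θ F₀ ξ)) := by
  have := h.tendsto_zero (F := fun a => F a - F₀) (C := C + ‖F₀‖)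
    (hC.mono fun a ha => (norm_sub_le _ _).trans (by gcongr)) hF ξ
  simp only [map_sub, _root_.sub_apply] at this
  exact tendsto_sub_nhds_zero_iff.1 this

theorem Nondeg.denseRange (h : θ.Nondeg) {F : Z →ᵇ ℂ} (hF : ∀ z, F z ≠ 0) : DenseRange (θ F) := by
  refine denseRange_of_adjoint_inj fun ξ hξ => ?_
  have hpos : ∀ (n : ℕ) z, (0 : ℝ) < n * ‖F z‖ ^ 2 + 1 := fun n z => by positivity
  let G : ℕ → Z →ᵇ ℂ := fun n => ofNormedAddCommGroup
    (fun z => ((n * ‖F z‖ ^ 2 + 1 : ℝ) : ℂ)⁻¹)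
    (Continuous.inv₀ (by fun_prop) fun z => by exact_mod_cast (hpos n z).ne') 1 fun z => by
      rw [norm_inv, Complex.norm_real, Real.norm_of_nonneg (hpos n z).le]
      exact inv_le_one_of_one_le₀ (le_add_of_nonneg_left (by positivity))
  have hG : ∀ n z, ‖G n z‖ = (n * ‖F z‖ ^ 2 + 1)⁻¹ := fun n z => by
    change ‖((n * ‖F z‖ ^ 2 + 1 : ℝ) : ℂ)⁻¹‖ = _
    rw [norm_inv, Complex.norm_real, Real.norm_of_nonneg (hpos n z).le]
  have h1 : ∀ n, θ (G n) ξ = ξ := fun n => by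
    have e : G n = 1 - ((n : ℂ) • (G n * F)) * star F := by
      ext z
      have h2 : ((n * ‖F z‖ ^ 2 + 1 : ℝ) : ℂ) ≠ 0 := by exact_mod_cast (hpos n z).ne'
      change ((n * ‖F z‖ ^ 2 + 1 : ℝ) : ℂ)⁻¹
        = 1 - (n : ℂ) * (((n * ‖F z‖ ^ 2 + 1 : ℝ) : ℂ)⁻¹ * F z) * (starRingEnd ℂ) (F z)
      rw [mul_assoc, mul_assoc, Complex.mul_conj']
      field_simp
      push_cast; ring
    rw [e, map_sub, map_mul, map_star, map_one, _root_.sub_apply, mul_apply_eq_comp, hξ, map_zero,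
      sub_zero, one_apply_eq_self]
  have h2 := h.tendsto_zero (l := atTop) (F := G) (C := 1) (Eventually.of_forall fun n =>
    (BoundedContinuousFunction.norm_le zero_le_one).2 fun z => by
      rw [hG]; exact inv_le_one_of_one_le₀ (le_add_of_nonneg_left (by positivity)))
    (fun S hS ε hε => ?_) ξ
  · simp only [h1] at h2
    exact tendsto_const_nhds_iff.1 h2
  · obtain ⟨c, hc, hc'⟩ := hS.exists_forall_le' (f := fun z => ‖F z‖ ^ 2) (a := 0)
      (by fun_prop) fun z _ => by have := hF z; positivity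
    filter_upwards [tendsto_natCast_atTop_atTop.eventually_ge_atTop (ε * c)⁻¹] with n hn z hz
    rw [hG, inv_le_comm₀ (hpos n z) hε]
    have : ε⁻¹ = (ε * c)⁻¹ * c := by field_simp
    have h3 : (ε * c)⁻¹ * c ≤ n * ‖F z‖ ^ 2 := by gcongr; exact hc' z hz
    linarith

theorem exists_approx {A : StarSubalgebra ℂ (Z →ᵇ ℂ)} (hA : IsClosed (A : Set (Z →ᵇ ℂ)))
    (sep : ∀ x y : Z, x ≠ y → ∃ f ∈ A, f x ≠ f y) (F : Z →ᵇ ℂ) {S : Set Z} (hS : IsCompact S)
    {ε : ℝ} (hε : 0 < ε) : ∃ a ∈ A, ‖a‖ ≤ ‖F‖ + ε ∧ ∀ z ∈ S, ‖a z - F z‖ ≤ ε := by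
  have : CompactSpace S := isCompact_iff_compactSpace.1 hS
  let r : (Z →ᵇ ℂ) →⋆ₐ[ℂ] C(S, ℂ) :=
    { toFun := fun f => ⟨fun s => f s, by fun_prop⟩
      map_one' := rfl
      map_mul' := fun _ _ => rfl
      map_zero' := rfl
      map_add' := fun _ _ => rfl
      commutes' := fun _ => rfl
      map_star' := fun _ => rfl }
  have h2 := ContinuousMap.starSubalgebra_topologicalClosure_eq_top_of_separatesPoints
    (A.map r) fun x y hxy => by
      obtain ⟨f, hf, h⟩ := sep x y fun h => hxy (Subtype.ext h)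
      exact ⟨r f, ⟨r f, ⟨f, hf, rfl⟩, rfl⟩, h⟩
  have h3 : r F ∈ closure (A.map r : Set C(S, ℂ)) := by
    rw [← StarSubalgebra.topologicalClosure_coe, h2]; trivial
  obtain ⟨_, ⟨a, ha, rfl⟩, hd⟩ := Metric.mem_closure_iff.1 h3 ε hε
  have hd' : ∀ z ∈ S, ‖a z - F z‖ ≤ ε := fun z hz => by
    rw [← dist_eq_norm, dist_comm]
    exact ((r F).dist_apply_le_dist (g := r a) ⟨z, hz⟩).trans hd.le
  let a' : C(Z, Metric.closedBall (0 : ℂ) ‖a‖) :=
    ⟨fun z => ⟨a z, mem_closedBall_zero_iff.2 (a.norm_coe_le_norm z)⟩, by fun_prop⟩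
  have key : ∀ g : C(Metric.closedBall (0 : ℂ) ‖a‖, ℂ), (mkOfCompact g).compContinuous a' ∈ A := by
    intro g
    induction g using ContinuousMap.induction_on_of_compact with
    | const c => exact A.algebraMap_mem c
    | id => exact ha
    | star_id => exact star_mem ha
    | add f g hf hg => exact A.add_mem hf hg
    | mul f g hf hg => exact A.mul_mem hf hg
    | frequently f hf =>
      have hc : Continuous fun g : C(Metric.closedBall (0 : ℂ) ‖a‖, ℂ) =>
          (mkOfCompact g).compContinuous a' :=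
        (continuous_compContinuous a').comp
          (ContinuousMap.isometryEquivBoundedOfCompact _ _).continuous
      exact (hA.preimage hc).closure_subset (mem_closure_iff_frequently.2 hf)
  have hM : 0 < ‖F‖ + ε := by positivity
  have hm : ∀ z : ℂ, 0 < max (‖F‖ + ε) ‖z‖ := fun z => lt_max_of_lt_left hM
  let g : C(Metric.closedBall (0 : ℂ) ‖a‖, ℂ) :=
    ⟨fun z => (((‖F‖ + ε) / max (‖F‖ + ε) ‖(z : ℂ)‖ : ℝ) : ℂ) * z,
      (Complex.continuous_ofReal.comp (continuous_const.div (by fun_prop) fun z => (hm _).ne')).mul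
        continuous_subtype_val⟩
  have hg : ∀ z, (mkOfCompact g).compContinuous a' z
      = (((‖F‖ + ε) / max (‖F‖ + ε) ‖a z‖ : ℝ) : ℂ) * a z := fun z => rfl
  refine ⟨_, key g, (BoundedContinuousFunction.norm_le hM.le).2 fun z => ?_, fun z hz => ?_⟩
  · rw [hg, norm_mul, Complex.norm_real, Real.norm_of_nonneg (div_pos hM (hm _)).le,
      div_mul_eq_mul_div, div_le_iff₀ (hm _)]
    gcongr
    exact le_max_right _ _
  · have : ‖a z‖ ≤ ‖F‖ + ε := by
      linarith [norm_sub_norm_le (a z) (F z), hd' z hz, F.norm_coe_le_norm z]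
    rw [hg, max_eq_left this, div_self hM.ne']
    simpa using hd' z hz

/-- **Uniqueness / intertwining** from a separating family. -/
theorem intertwine_of_sep {θ' : BRep Z K'} (h : θ.Nondeg) (h' : θ'.Nondeg) (T : K →L[ℂ] K')
    (S : Set (Z →ᵇ ℂ)) (sep : ∀ x y : Z, x ≠ y → ∃ f ∈ S, f x ≠ f y)
    (hS : ∀ f ∈ S, T ∘L θ f = θ' f ∘L T) (hS' : ∀ f ∈ S, T ∘L θ (star f) = θ' (star f) ∘L T)
    (F : Z →ᵇ ℂ) : T ∘L θ F = θ' F ∘L T := by
  let A : StarSubalgebra ℂ (Z →ᵇ ℂ) :=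
    { carrier := {f | T ∘L θ f = θ' f ∘L T ∧ T ∘L θ (star f) = θ' (star f) ∘L T}
      mul_mem' := fun {a b} ha hb => by
        simp only [Set.mem_ofPred_eq, star_mul, map_mul, ContinuousLinearMap.mul_def] at ha hb ⊢
        constructor
        · rw [← ContinuousLinearMap.comp_assoc, ha.1, ContinuousLinearMap.comp_assoc, hb.1,
            ContinuousLinearMap.comp_assoc]
        · rw [← ContinuousLinearMap.comp_assoc, hb.2, ContinuousLinearMap.comp_assoc, ha.2,
            ContinuousLinearMap.comp_assoc]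
      add_mem' := fun {a b} ha hb => by
        simp only [Set.mem_ofPred_eq, star_add, map_add, ContinuousLinearMap.comp_add,
          ContinuousLinearMap.add_comp, ha.1, ha.2, hb.1, hb.2, and_self]
      algebraMap_mem' := fun c => by
        simp [Algebra.algebraMap_eq_smul_one, ContinuousLinearMap.one_def]
      star_mem' := fun {a} ha => ⟨ha.2, by simpa only [star_star] using ha.1⟩ }
  have hA : IsClosed (A : Set (Z →ᵇ ℂ)) := by
    have h1 := θ.continuous
    have h2 := θ'.continuous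
    exact (isClosed_eq (by fun_prop) (by fun_prop)).inter (isClosed_eq (by fun_prop) (by fun_prop))
  have hap := fun (p : TopologicalSpace.Compacts Z × ℕ) => exists_approx hA
    (fun x y hxy => (sep x y hxy).imp fun f hf => ⟨⟨hS f hf.1, hS' f hf.1⟩, hf.2⟩) F p.1.isCompact
    (Nat.one_div_pos_of_nat (n := p.2) (α := ℝ))
  choose a ha hb hc using hap
  have hb' : ∀ᶠ p in atTop, ‖a p‖ ≤ ‖F‖ + 1 := Eventually.of_forall fun p =>
    (hb p).trans (by gcongr; exact Nat.one_div_le_one_div (Nat.zero_le _) |>.trans (by simp))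
  have hc' : ∀ S, IsCompact S → ∀ ε > 0, ∀ᶠ p in atTop, ∀ z ∈ S, ‖a p z - F z‖ ≤ ε := by
    intro S hS ε hε
    obtain ⟨n, hn⟩ := exists_nat_one_div_lt hε
    filter_upwards [eventually_ge_atTop ((⟨S, hS⟩, n) : TopologicalSpace.Compacts Z × ℕ)]
      with p hp z hz
    exact (hc p z (hp.1 hz)).trans ((Nat.one_div_le_one_div hp.2).trans hn.le)
  ext1 ξ
  refine tendsto_nhds_unique ((T.continuous.tendsto _).comp (h.tendsto hb' hc' ξ))
    ((h'.tendsto hb' hc' (T ξ)).congr fun p => ?_)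
  exact (congrArg (fun B : K →L[ℂ] K' => B ξ) (ha p).1).symm

theorem ext_of_sep {θ' : BRep Z K} (h : θ.Nondeg) (h' : θ'.Nondeg)
    (S : Set (Z →ᵇ ℂ)) (sep : ∀ x y : Z, x ≠ y → ∃ f ∈ S, f x ≠ f y)
    (hS : ∀ f ∈ S, θ f = θ' f) : θ = θ' := by
  ext1 F
  exact intertwine_of_sep h h' 1 S sep (fun f hf => hS f hf)
    (fun f hf => by change θ (star f) = θ' (star f); rw [map_star, map_star, hS f hf]) F

/-- push-forward along a continuous map -/
noncomputable def map {Z' : Type} [TopologicalSpace Z'] (θ : BRep Z K) (g : C(Z, Z')) :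
    BRep Z' K :=
  θ.comp
    { toFun := fun F => F.compContinuous g
      map_one' := rfl
      map_mul' := fun _ _ => rfl
      map_zero' := rfl
      map_add' := fun _ _ => rfl
      commutes' := fun _ => rfl
      map_star' := fun _ => rfl }

@[simp] theorem map_apply {Z' : Type} [TopologicalSpace Z'] (θ : BRep Z K) (g : C(Z, Z'))
    (F : Z' →ᵇ ℂ) : θ.map g F = θ (F.compContinuous g) := rfl

theorem Nondeg.map {Z' : Type} [TopologicalSpace Z'] (h : θ.Nondeg) (g : C(Z, Z'))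
    {w : Z' →ᵇ ℂ} (hw : Tendsto w (cocompact Z') (𝓝 0)) (hw' : ∀ z, w z ≠ 0) : (θ.map g).Nondeg :=
  ⟨w, hw, h.denseRange fun _ => hw' _⟩

/-- the representation of `C(Y)` defined by a continuous map to a compact space -/
noncomputable def toRep {Y : Type} [TopologicalSpace Y] [CompactSpace Y] (θ : BRep Z K)
    (g : C(Z, Y)) : MOI.Rep Y (K →L[ℂ] K) :=
  θ.comp
    { toFun := fun f => (mkOfCompact f).compContinuous g
      map_one' := rfl
      map_mul' := fun _ _ => rfl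
      map_zero' := rfl
      map_add' := fun _ _ => rfl
      commutes' := fun _ => rfl
      map_star' := fun _ => rfl }

theorem toRep_apply {Y : Type} [TopologicalSpace Y] [CompactSpace Y] (θ : BRep Z K)
    (g : C(Z, Y)) (f : C(Y, ℂ)) : θ.toRep g f = θ ((mkOfCompact f).compContinuous g) := rfl

/-- conjugation by a unitary (or any `*`-homomorphism) preserves non-degeneracy -/
theorem Nondeg.of_conj {θ' : BRep Z K} (h : θ.Nondeg) {U V : K →L[ℂ] K} (hU : DenseRange U)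
    (hV : DenseRange V) (e : ∀ F, θ' F = U * θ F * V) : θ'.Nondeg := by
  obtain ⟨w, hw, hd⟩ := h
  refine ⟨w, hw, ?_⟩
  rw [e]
  exact (hU.comp hd U.continuous).comp hV (U * θ w).continuous

section ext

variable {Y : Type} [TopologicalSpace Y] (Θ : MOI.Rep Y (K →L[ℂ] K)) (w : C(Y, ℂ))
  {p : Y → Z} (hp : ContinuousOn p {y | w y ≠ 0})

/-- `(F ∘ p) w` extended by zero -/
noncomputable def hat (F : Z →ᵇ ℂ) : C(Y, ℂ) :=
  ⟨fun y => F (p y) * w y, by
    refine continuous_iff_continuousAt.2 fun y => ?_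
    by_cases hy : w y = 0
    · have h0 : Tendsto w (𝓝 y) (𝓝 0) := hy ▸ w.continuous.tendsto y
      rw [ContinuousAt, hy, mul_zero]
      refine squeeze_zero_norm (fun y' => ?_) (by simpa using h0.norm.const_mul ‖F‖)
      rw [norm_mul]
      gcongr
      exact F.norm_coe_le_norm _
    · exact (F.continuous.continuousAt.comp (hp.continuousAt
        ((isOpen_ne_fun w.continuous continuous_const).mem_nhds hy))).mul
        w.continuous.continuousAt⟩

@[simp] lemma hat_apply (F : Z →ᵇ ℂ) (y : Y) : hat w hp F y = F (p y) * w y := rfl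

lemma norm_hat_le (F : Z →ᵇ ℂ) (ξ : K) : ‖Θ (hat w hp F) ξ‖ ≤ ‖F‖ * ‖Θ w ξ‖ := by
  refine (Θ.norm_apply_mono (g := (‖F‖ : ℂ) • w) (fun y => ?_) ξ).trans ?_
  · simp only [hat_apply, ContinuousMap.smul_apply, smul_eq_mul, norm_mul, Complex.norm_real,
      norm_norm]
    gcongr
    exact F.norm_coe_le_norm _
  · simp [norm_smul]

variable (hw : DenseRange (Θ w))

/-- the operator `T` with `T Θ(w) = Θ((F ∘ p) w)` -/
noncomputable def extOp (F : Z →ᵇ ℂ) : K →L[ℂ] K :=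
  (Θ (hat w hp F) : K →ₗ[ℂ] K).extendOfNorm (Θ w : K →ₗ[ℂ] K)

include hw

lemma extOp_mul (F : Z →ᵇ ℂ) : extOp Θ w hp F * Θ w = Θ (hat w hp F) := by
  ext1 ξ
  exact LinearMap.extendOfNorm_eq hw ⟨‖F‖, norm_hat_le Θ w hp F⟩ ξ

lemma eq_extOp {F : Z →ᵇ ℂ} {T : K →L[ℂ] K} (h : T * Θ w = Θ (hat w hp F)) :
    extOp Θ w hp F = T := eq_of_mul_denseRange hw ((extOp_mul Θ w hp hw F).trans h.symm)

lemma extOp_comm (F : Z →ᵇ ℂ) (f : C(Y, ℂ)) : extOp Θ w hp F * Θ f = Θ f * extOp Θ w hp F := by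
  refine mul_cancel_denseRange hw ?_
  rw [mul_assoc, Θ.comm f w, ← mul_assoc, extOp_mul Θ w hp hw, mul_assoc, extOp_mul Θ w hp hw,
    Θ.comm]

/-- extension of a representation along a weight with dense range -/
noncomputable def ext : BRep Z K where
  toFun := extOp Θ w hp
  map_one' := eq_extOp Θ w hp hw (by rw [one_mul]; congr 1; ext y; simp)
  map_zero' := eq_extOp Θ w hp hw (by
    rw [zero_mul, ← map_zero Θ]; congr 1; ext y; simp)
  map_add' F G := eq_extOp Θ w hp hw (by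
    rw [add_mul, extOp_mul Θ w hp hw, extOp_mul Θ w hp hw, ← map_add]
    congr 1; ext y; simp [add_mul])
  map_mul' F G := eq_extOp Θ w hp hw (by
    refine mul_cancel_denseRange hw ?_
    rw [mul_assoc (extOp Θ w hp F), extOp_mul Θ w hp hw, mul_assoc, Θ.comm, ← mul_assoc,
      extOp_mul Θ w hp hw, ← map_mul, ← map_mul]
    congr 1; ext y; simp; ring)
  commutes' c := eq_extOp Θ w hp hw (by
    rw [Algebra.algebraMap_eq_smul_one, smul_mul_assoc, one_mul, ← map_smul]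
    congr 1)
  map_star' F := eq_extOp Θ w hp hw (by
    have h1 : Θ (star w) * star (extOp Θ w hp F) = Θ (star (hat w hp F)) := by
      rw [map_star, map_star, ← star_mul, extOp_mul Θ w hp hw]
    have h2 : star (extOp Θ w hp F) * Θ (star w) = Θ (star w) * star (extOp Θ w hp F) := by
      rw [map_star, ← star_mul, ← star_mul, extOp_comm Θ w hp hw]
    have hw' : DenseRange (Θ (star w)) := by
      refine denseRange_of_adjoint_inj fun ξ hξ => adjoint_inj_of_denseRange hw ?_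
      rw [map_star, star_star] at hξ
      rw [← norm_eq_zero, norm_star_apply_of_normal, hξ, norm_zero]
      rw [← map_star, Θ.comm]
    refine mul_cancel_denseRange hw' ?_
    rw [mul_assoc, Θ.comm w, ← mul_assoc, h2, h1, ← map_mul, ← map_mul]
    congr 1; ext y; simp; ring)

theorem ext_mul (F : Z →ᵇ ℂ) : ext Θ w hp hw F * Θ w = Θ (hat w hp F) := extOp_mul Θ w hp hw F

theorem ext_comm (F : Z →ᵇ ℂ) (f : C(Y, ℂ)) : ext Θ w hp hw F * Θ f = Θ f * ext Θ w hp hw F :=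
  extOp_comm Θ w hp hw F f

theorem ext_eq {F : Z →ᵇ ℂ} {T : K →L[ℂ] K} (h : T * Θ w = Θ (hat w hp F)) :
    ext Θ w hp hw F = T := eq_extOp Θ w hp hw h

end ext

end BRep

end Crest.Agent.N111
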